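import Vale.Agent.P263B64.Desc
import Vale.Agent.P263B15.Rows

/-!
# P263, bridge: the stable splitting

`split` : if `JF f ∘ c` and `JF f' ∘ c` are homotopic in the suspension of `Y` with a whisker, then
`f c` and `f' c` are stably homotopic.
-/

namespace Vale.Agent.P263B64

open unitInterval OnePoint Topology Vale.Agent.P263.T0 Vale.Agent.P263.TJ Vale.Agent.P263.FR
open Vale.Agent.P263.T0.Ball (rho rho_coe rho_infty continuous_rho)
open Vale.Agent.P251.G (LC)
open Vale.Agent.P263B15

/-- the new first coordinate -/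
theorem exists_om (n : ℕ) : ∃ ω : C(OnePoint ((Fin n → ℝ) × ℝ) × I, Sph (n + 1)),
    ∀ (v : Sph n) (l : OnePoint ℝ) (s : I),
      ω (LC.smash v l, s) = join2 v (e1 (pj ((s : ℝ) * rho l))) := by
  let Q : C((Sph n × OnePoint ℝ) × I, OnePoint ((Fin n → ℝ) × ℝ) × I) :=
    ⟨fun q => (LC.smash q.1.1 q.1.2, q.2),
      ((LC.continuous_smash (X := Fin n → ℝ) (Y := ℝ)).comp continuous_fst).prodMk continuous_snd⟩
  have hQ : IsQuotientMap Q := Q.continuous.isClosedMap.isQuotientMap Q.continuous (by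
    rintro ⟨y, s⟩
    induction y using OnePoint.rec with
    | infty => exact ⟨((∞, ∞), s), rfl⟩
    | coe v => exact ⟨(((v.1 : Sph n), (v.2 : OnePoint ℝ)), s), rfl⟩)
  let f : C((Sph n × OnePoint ℝ) × I, Sph (n + 1)) :=
    ⟨fun q => join2 q.1.1 (e1 (pj ((q.2 : ℝ) * rho q.1.2))), continuous_join2.comp
      ((continuous_fst.comp continuous_fst).prodMk (e1.continuous.comp (continuous_pj.comp
        ((continuous_subtype_val.comp continuous_snd).mul
          (continuous_rho.comp (continuous_snd.comp continuous_fst))))))⟩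
  have hinf : ∀ (v : Sph n) (l : OnePoint ℝ) (s : I),
      LC.smash v l = (∞ : OnePoint ((Fin n → ℝ) × ℝ)) → f ((v, l), s) = ∞ := by
    intro v l s he
    show join2 v (e1 (pj ((s : ℝ) * rho l))) = ∞
    rcases LC.smash_eq_infty.1 he with rfl | rfl
    · exact join2_infty_left _
    · rw [rho_infty, mul_zero, pj_nonpos le_rfl, e1_zero, join2_infty_right]
  have hf : Function.FactorsThrough f Q := by
    rintro ⟨⟨v, l⟩, s⟩ ⟨⟨v', l'⟩, s'⟩ he
    obtain rfl : s = s' := congrArg Prod.snd he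
    have he' : LC.smash v l = LC.smash v' l' := congrArg Prod.fst he
    by_cases hi : LC.smash v l = (∞ : OnePoint ((Fin n → ℝ) × ℝ))
    · rw [hinf v l s hi, hinf v' l' s (by rw [← he']; exact hi)]
    · have hi' : LC.smash v' l' ≠ (∞ : OnePoint ((Fin n → ℝ) × ℝ)) := by rwa [← he']
      obtain ⟨a, rfl⟩ := OnePoint.ne_infty_iff_exists.1
        fun h : v = ∞ => hi (LC.smash_eq_infty.2 (Or.inl h))
      obtain ⟨a', rfl⟩ := OnePoint.ne_infty_iff_exists.1
        fun h : v' = ∞ => hi' (LC.smash_eq_infty.2 (Or.inl h))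
      obtain ⟨b, rfl⟩ := OnePoint.ne_infty_iff_exists.1
        fun h : l = ∞ => hi (LC.smash_eq_infty.2 (Or.inr h))
      obtain ⟨b', rfl⟩ := OnePoint.ne_infty_iff_exists.1
        fun h : l' = ∞ => hi' (LC.smash_eq_infty.2 (Or.inr h))
      have h5 : (a, b) = (a', b') := OnePoint.coe_injective he'
      obtain rfl : a = a' := congrArg Prod.fst h5
      obtain rfl : b = b' := congrArg Prod.snd h5
      rfl
  refine ⟨hQ.lift f hf, fun v l s => ?_⟩
  exact DFunLike.congr_fun (hQ.lift_comp f hf) ((v, l), s)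

variable {X Y N : Type} [TopologicalSpace X] [TopologicalSpace Y] [CompactSpace Y] [T2Space Y]
  [TopologicalSpace N] [CompactSpace N] [T2Space N]

/-- the second coordinate has to be continuous only at the finite points -/
theorem continuous_smP {K : ℕ} {w : X → Sph K} {y : X → Y} (hw : Continuous w)
    (hy : ∀ x, w x ≠ ∞ → ContinuousAt y x) : Continuous fun x => smP K Y (w x, y x) := by
  rw [continuous_iff_continuousAt]
  intro x
  by_cases hx : w x = ∞
  · intro O hO
    obtain ⟨U, hU, hUo, hxU⟩ := mem_nhds_iff.1 hO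
    have h1 : IsOpen ((smP K Y) ⁻¹' U) := hUo.preimage (smP K Y).continuous
    have h2 : ∀ᶠ u in 𝓝 (∞ : Sph K), ∀ y' ∈ (Set.univ : Set Y), (u, y') ∈ (smP K Y) ⁻¹' U := by
      refine isCompact_univ.eventually_forall_of_forall_eventually fun y' _ => ?_
      refine h1.mem_nhds ?_
      have h3 : smP K Y (w x, y x) ∈ U := hxU
      rw [hx] at h3
      exact h3
    rw [← hx] at h2
    have h4 : ∀ᶠ x' in 𝓝 x, ∀ y' ∈ (Set.univ : Set Y), (w x', y') ∈ (smP K Y) ⁻¹' U :=
      hw.continuousAt.eventually h2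
    exact Filter.mem_map.2 (h4.mono fun x' hx' => hU (hx' (y x') trivial))
  · exact (smP K Y).continuous.continuousAt.comp (f := fun x => (w x, y x))
      (hw.continuousAt.prodMk (hy x hx))

/-- the point of `Y` -/
def get (y₀ : Y) (κ : Ext Y) : Y := Option.elim κ y₀ id

omit [CompactSpace Y] [T2Space Y] in
theorem continuousAt_get (y₀ y : Y) : ContinuousAt (get y₀) (Ext.of y) :=
  Ext.isOpenEmbedding_of.continuousAt_iff.1 (continuousAt_id (x := y))

theorem smP_join2 {n : ℕ} (v : Fin n → ℝ) (y : Y) (u : Sph 1) :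
    smP (n + 1) Y (join2 (v : Sph n) u, y) =
      snocT (((v, y) : (Fin n → ℝ) × Y) : TT n Y) u := by
  induction u using OnePoint.rec with
  | infty => rw [join2_infty_right, snocT_infty_right, smP_infty]
  | coe u => rfl

/-- **The stable splitting.** -/
theorem split_sus {m n : ℕ} (y₀ : Y) (f f' : C(N, Y)) (c : C(Sph m, TT n N)) (hc : c ∞ = ∞)
    (H : C(I × Sph m, SuN n y₀)) (h0 : ∀ z, H (0, z) = JF n y₀ f (c z))
    (h1 : ∀ z, H (1, z) = JF n y₀ f' (c z)) (hb : ∀ t, H (t, ∞) = Su.inf _ y₀) :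
    (susC 1 ((thm f).comp c) (congrArg (thm f) hc)).HomotopicRel
      (susC 1 ((thm f').comp c) (congrArg (thm f') hc)) {∞} := by
  obtain ⟨ω, hω⟩ := exists_om n
  have ωinf : ∀ s, ω (∞, s) = ∞ := fun s => (hω ∞ ∞ s).trans (join2_infty_left _)
  have ωzero : ∀ u, ω (u, 0) = ∞ := by
    intro u
    induction u using OnePoint.rec with
    | infty => exact ωinf 0
    | coe u =>
      refine (hω (u.1 : Sph n) (u.2 : OnePoint ℝ) 0).trans ?_
      rw [pj_nonpos (by simp), e1_zero, join2_infty_right]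
  have ωax : ∀ (v : Fin n → ℝ) (s : I),
      ω ((((v, 0) : (Fin n → ℝ) × ℝ) : OnePoint _), s) = join2 (v : Sph n) (e1 s) := by
    intro v s
    refine (hω (v : Sph n) ((0 : ℝ) : OnePoint ℝ) s).trans ?_
    rw [rho_coe, norm_zero, add_zero, inv_one, mul_one, pj_coe]
  have hw : Continuous fun q : (I × Sph m) × I => ω ((H q.1).1.1, q.2) :=
    ω.continuous.comp ((Su.continuous_fst.comp (H.continuous.comp continuous_fst)).prodMk
      continuous_snd)
  let A : C((I × Sph m) × I, TT (n + 1) Y) :=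
    ⟨fun q => smP (n + 1) Y (ω ((H q.1).1.1, q.2), get y₀ (H q.1).1.2),
      continuous_smP hw fun q hq => by
        rcases Su.cases (H q.1) with h | ⟨e, k, hk, h⟩
        · rw [h] at hq
          exact absurd (ωinf q.2) hq
        · refine ContinuousAt.comp (g := get y₀) (f := fun q : (I × Sph m) × I => (H q.1).1.2) ?_
            (Su.continuous_snd.comp (H.continuous.comp continuous_fst)).continuousAt
          rw [h]
          exact continuousAt_get y₀ k⟩
  let B : C((I × Sph m) × I, TT (n + 1) Y) :=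
    ⟨fun q => smP (n + 1) Y (ω ((H q.1).1.1, q.2), y₀),
      (smP (n + 1) Y).continuous.comp (hw.prodMk continuous_const)⟩
  have hA : ∀ p s, A (p, s) = smP (n + 1) Y (ω ((H p).1.1, s), get y₀ (H p).1.2) := fun _ _ => rfl
  have hB : ∀ p s, B (p, s) = smP (n + 1) Y (ω ((H p).1.1, s), y₀) := fun _ _ => rfl
  have hAB : ∀ p, A (p, 1) = B (p, 1) := by
    intro p
    rw [hA, hB]
    rcases Su.cases (H p) with h | ⟨⟨v, l⟩, k, hk, h⟩
    · rw [h]
      rfl
    · rw [h]
      rcases hk.2 with h2 | rfl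
      · obtain rfl : l = 0 := h2
        have h3 : ω ((Su.mk (ContinuousLinearMap.snd ℝ (Fin n → ℝ) ℝ) y₀ (v, 0) k hk).1.1, 1) = ∞ :=
          (ωax v 1).trans (by rw [e1_one, join2_infty_right])
        rw [h3, smP_infty, smP_infty]
      · rfl
  -- the two ends
  have hend : ∀ (g : C(N, Y)) (p : I × Sph m) (z : Sph m), H p = JF n y₀ g (c z) → ∀ s,
      A (p, s) = lp ((thm g).comp c) (z, s) ∧
        B (p, s) = lp ((thm (ContinuousMap.const N y₀)).comp c) (z, s) := by
    intro g p z h s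
    rw [hA, hB, h, lp_apply, lp_apply, ContinuousMap.comp_apply, ContinuousMap.comp_apply]
    generalize c z = u
    induction u using OnePoint.rec with
    | infty =>
      have h3 : ω ((JF n y₀ g (∞ : TT n N)).1.1, s) = ∞ := ωinf s
      rw [h3, smP_infty, smP_infty, thm_infty, thm_infty, snocT_infty_left]
      exact ⟨rfl, rfl⟩
    | coe u =>
      have h3 : ω ((JF n y₀ g (u : TT n N)).1.1, s) = join2 (u.1 : Sph n) (e1 s) := ωax u.1 s
      rw [h3, smP_join2, smP_join2]
      exact ⟨rfl, rfl⟩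
  have hb0 : ((thm (K := n) (ContinuousMap.const N y₀)).comp c) ∞ = ∞ :=
    congrArg (thm (ContinuousMap.const N y₀)) hc
  have ha : ((thm (K := n) f).comp c) ∞ = ∞ := congrArg (thm f) hc
  have ha' : ((thm (K := n) f').comp c) ∞ = ∞ := congrArg (thm f') hc
  have k1 : ∀ z, lp ((thm f).comp c) (z, 1) =
      lp ((thm (ContinuousMap.const N y₀)).comp c) (z, 1) := fun z =>
    ((isLp_lp ha).one z).trans ((isLp_lp hb0).one z).symm
  have k1' : ∀ z, lp ((thm f').comp c) (z, 1) =
      lp ((thm (ContinuousMap.const N y₀)).comp c) (z, 1) := fun z =>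
    ((isLp_lp ha').one z).trans ((isLp_lp hb0).one z).symm
  refine sus_of_lp ha ha' (cancel (isLp_lp ha) (isLp_lp ha') (isLp_lp hb0) k1 k1' ?_)
  refine htp_of (isLp_cat (isLp_lp ha) (isLp_lp hb0) k1)
    (fun q => W A B ((q.1, q.2.1), 2 * (q.2.2 : ℝ))) ((continuous_W hAB).comp (by fun_prop))
    ?_ ?_ ?_
  · rintro ⟨z, s⟩
    show W A B (_, _) = _
    rw [cat_apply]
    rcases le_total (2 * (s : ℝ)) 1 with h | h
    · rw [W_le _ h, W_le _ h]
      exact (hend f _ z (h0 z) _).1
    · rw [W_ge hAB _ h, W_ge k1 _ h]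
      exact (hend f _ z (h0 z) _).2
  · rintro ⟨z, s⟩
    show W A B (_, _) = _
    rw [cat_apply]
    rcases le_total (2 * (s : ℝ)) 1 with h | h
    · rw [W_le _ h, W_le _ h]
      exact (hend f' _ z (h1 z) _).1
    · rw [W_ge hAB _ h, W_ge k1' _ h]
      exact (hend f' _ z (h1 z) _).2
  · rintro t ⟨z, s⟩ (h | h | h)
    · obtain rfl : s = 0 := h
      show W A B (_, _) = _
      rw [W_le _ (by simp), pj_nonpos (by simp), hA, ωzero, smP_infty]
    · obtain rfl : s = 1 := h
      show W A B (_, _) = _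
      rw [W_ge hAB _ (by simp), pj_nonpos (by simp), hB, ωzero, smP_infty]
    · obtain rfl : z = ∞ := h
      show W A B (_, _) = _
      have h3 : ∀ s', ω ((H (t, ∞)).1.1, s') = ∞ := fun s' => by
        rw [hb]
        exact ωinf s'
      rcases le_total (2 * (s : ℝ)) 1 with h | h
      · rw [W_le _ h, hA, h3, smP_infty]
      · rw [W_ge hAB _ h, hB, h3, smP_infty]

/-- row SPLIT -/
theorem split : SPLIT := by
  intro m n N Y _ _ _ _ _ _ y₀ c f f' a a' hc h0 h1 h
  obtain ⟨H⟩ := h
  refine stHtpc_of_sus (k := 1) (congrArg (thm f) hc) (congrArg (thm f') hc)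
    (split_sus y₀ f f' c hc ⟨H, map_continuous H⟩ (fun z => (H.apply_zero z).trans (h0 z))
      (fun z => (H.apply_one z).trans (h1 z)) fun t => ?_)
  refine (H.eq_fst t rfl).trans ((h0 ∞).trans ?_)
  rw [hc]
  rfl

end Vale.Agent.P263B64
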