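import Vale.Agent.P263B15.Two
import Vale.Agent.P263B15.Conv
import Vale.Agent.P263B87.Susp
import Vale.Agent.P263B19.Row
import Vale.Agent.P263B90.Row
import Vale.Agent.P263B94.Row
import Vale.Agent.P263B49.Row
import Vale.Agent.P263B96.Wh
import Vale.Agent.P263B96.Ev
import Vale.Agent.P263B71.Fib
import Vale.Agent.P263B89.MVH
import Vale.Agent.P263B5.Row
import Vale.Agent.P263B92.Rows
import Vale.Agent.P263B39.Att
import Vale.Agent.P263B39.Kill1
import Vale.Agent.P263B33.Ext
import Vale.Agent.P263B33.Loopy
import Vale.Agent.P263B67.Row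
import Vale.Agent.P263B76.Zex
import Vale.Agent.P263B36.Cut
import Vale.Agent.P263B14.NullC
import Vale.Agent.P263B64.Split

/-!
# P263, bridge: all rows together (Brown's theorem, `Phi x = 0` implies `PhiZero`)
-/

namespace Vale.Agent.P263B64

theorem conv : P263B15.CONV :=
  P263B15.conv
    (P263B76.zex P263B39.att P263B33.ext1 P263B33.ext2 P263B67.stepsc P263B39.kill1 P263B67.kill2
      P263B67.kill3)
    (P263B15.two P263B87.susp P263B19.homeo P263B90.susph P263B94.loopsc P263B94.adj_row
      P263B19.freu P263B49.looph P263B96.whisk P263B96.ev P263B71.fib (P263B89.mvh P263B5.ke)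
      P263B92.hur P263B92.lift)
    P263B36.jc P263B14.nullc P263B36.cut split P263B33.loopy

end Vale.Agent.P263B64
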