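import Vale.Agent.P263B64.Loop
import Vale.Agent.P263.AD.FreuRH
import Vale.Agent.P263.AD.Bridge
import Vale.Agent.P263.FR.H378.PhiZ

/-!
# P263, bridge: from families of loops to suspensions
-/

namespace Vale.Agent.P263B64

open unitInterval OnePoint Vale.Agent.P263.T0 Vale.Agent.P263.TJ Vale.Agent.P263.FR
open Vale.Agent.P263.AD.Freu (ps ps_zero ps_one ps_surjective exists_descQ)
open Vale.Agent.P251.G (LC)

/-- the quotient map from the interval to `S¹` -/
noncomputable def e1 : C(I, Sph 1) :=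
  ⟨fun s => (Homeomorph.funUnique (Fin 1) ℝ).symm.onePointCongr (ps s),
    (Homeomorph.continuous _).comp ps.continuous⟩

theorem e1_zero : e1 0 = ∞ := by
  show (Homeomorph.funUnique (Fin 1) ℝ).symm.onePointCongr (ps 0) = ∞
  rw [ps_zero]
  rfl

theorem e1_one : e1 1 = ∞ := by
  show (Homeomorph.funUnique (Fin 1) ℝ).symm.onePointCongr (ps 1) = ∞
  rw [ps_one]
  rfl

theorem congr_e1 (s : I) : (Homeomorph.funUnique (Fin 1) ℝ).onePointCongr (e1 s) = ps s := by
  show (Homeomorph.funUnique (Fin 1) ℝ).onePointCongr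
    ((Homeomorph.funUnique (Fin 1) ℝ).symm.onePointCongr (ps s)) = ps s
  generalize ps s = y
  induction y using OnePoint.rec with
  | infty => rfl
  | coe y => rfl

theorem e1_surjective : Function.Surjective e1 := fun y => by
  obtain ⟨s, hs⟩ := ps_surjective ((Homeomorph.funUnique (Fin 1) ℝ).onePointCongr y)
  refine ⟨s, (Homeomorph.funUnique (Fin 1) ℝ).onePointCongr.injective ?_⟩
  rw [congr_e1, hs]

theorem join2_e1_surj {m : ℕ} (w : Sph (m + 1)) : ∃ z s, w = join2 z (e1 s) := by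
  obtain ⟨⟨z, y⟩, h⟩ := (isQuotientMap_join2 (m := m) (k := 1)).surjective w
  obtain ⟨s, rfl⟩ := e1_surjective y
  exact ⟨z, s, h.symm⟩

/-- homotopies of families of loops descend to the sphere -/
theorem exists_desc {m : ℕ} {T : Type} [TopologicalSpace T] (t₀ : T)
    (G : C(I × (Sph m × I), T)) (hG : ∀ t, ∀ p ∈ Bd (∞ : Sph m), G (t, p) = t₀) :
    ∃ g : C(I × Sph (m + 1), T), ∀ t z s, g (t, join2 z (e1 s)) = G (t, (z, s)) := by
  obtain ⟨g, hg⟩ := exists_descQ (V := Fin m → ℝ) t₀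
    (⟨fun q => G (q.1.1, (q.1.2, q.2)), by fun_prop⟩ : C((I × Sph m) × I, T))
    (fun q => hG q.1 (q.2, 0) (Or.inl rfl)) (fun q => hG q.1 (q.2, 1) (Or.inr (Or.inl rfl)))
    (fun a t => hG a (∞, t) (Or.inr (Or.inr rfl)))
  refine ⟨⟨fun q => g (q.1, (Vale.Agent.P263.AD.Su.ap m).onePointCongr.symm q.2),
    g.continuous.comp (continuous_fst.prodMk
      ((Homeomorph.continuous _).comp continuous_snd))⟩, fun t z s => ?_⟩
  show g (t, (Vale.Agent.P263.AD.Su.ap m).onePointCongr.symm (join2 z (e1 s))) = _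
  rw [Vale.Agent.P263.AD.Su.join2_one, Homeomorph.symm_apply_apply, congr_e1]
  exact hg t z s

variable {P : Type} [TopologicalSpace P] [CompactSpace P] [T2Space P] {m n : ℕ}

/-- the family of loops of the suspension of `c` -/
noncomputable def lp (c : C(Sph m, TT n P)) : C(Sph m × I, TT (n + 1) P) :=
  ⟨fun p => snocT (c p.1) (e1 p.2), continuous_snocT.comp
    ((c.continuous.comp continuous_fst).prodMk (e1.continuous.comp continuous_snd))⟩

theorem lp_apply (c : C(Sph m, TT n P)) (z : Sph m) (s : I) :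
    lp c (z, s) = snocT (c z) (e1 s) := rfl

theorem isLp_lp {c : C(Sph m, TT n P)} (hc : c ∞ = ∞) : IsLp (∞ : Sph m) ∞ (lp c) := by
  rintro ⟨z, s⟩ (h | h | h)
  · obtain rfl : s = 0 := h
    rw [lp_apply, e1_zero, snocT_infty_right]
  · obtain rfl : s = 1 := h
    rw [lp_apply, e1_one, snocT_infty_right]
  · obtain rfl : z = ∞ := h
    rw [lp_apply, hc, snocT_infty_left]

/-- a homotopy of the families of loops gives a homotopy of the suspensions -/
theorem sus_of_lp {a a' : C(Sph m, TT n P)} (ha : a ∞ = ∞) (ha' : a' ∞ = ∞)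
    (h : (lp a).HomotopicRel (lp a') (Bd ∞)) :
    (susC 1 a ha).HomotopicRel (susC 1 a' ha') {∞} := by
  obtain ⟨G⟩ := h
  have hG : ∀ t, ∀ p ∈ Bd (∞ : Sph m), G (t, p) = ∞ := fun t p hp =>
    (G.eq_fst t hp).trans (isLp_lp ha p hp)
  obtain ⟨g, hg⟩ := exists_desc ∞ (⟨G, map_continuous G⟩ : C(I × (Sph m × I), TT (n + 1) P)) hG
  refine ⟨⟨⟨g, fun w => ?_, fun w => ?_⟩, fun t w hw => ?_⟩⟩
  · obtain ⟨z, s, rfl⟩ := join2_e1_surj w
    refine (hg 0 z s).trans ?_
    rw [susC_join2]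
    exact G.apply_zero (z, s)
  · obtain ⟨z, s, rfl⟩ := join2_e1_surj w
    refine (hg 1 z s).trans ?_
    rw [susC_join2]
    exact G.apply_one (z, s)
  · obtain rfl : w = ∞ := hw
    have h1 := hg t ∞ 0
    rw [join2_infty_left] at h1
    exact h1.trans (hG t (∞, 0) (Or.inl rfl))

/-- from a homotopy of the suspensions of suspensions to `StHtpc` -/
theorem stHtpc_of_sus {k : ℕ} {a a' : C(Sph m, TT n P)} (ha : a ∞ = ∞) (ha' : a' ∞ = ∞)
    (h : (susC k a ha).HomotopicRel (susC k a' ha') {∞}) :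
    StHtpc (m := m) (n := n) (X := TopCat.of P) a a' := by
  obtain ⟨G⟩ := h
  exact ⟨k, ⟨G, map_continuous G⟩, fun z => G.apply_zero z, fun z => G.apply_one z,
    fun t => G.eq_fst t rfl⟩

theorem susC_succ {k : ℕ} (a : C(Sph m, TT n P)) (ha : a ∞ = ∞) :
    (susC (k + 1) a ha : C(Sph (m + (k + 1)), TT (n + (k + 1)) P)) =
      susC (m := m + k) (n := n + k) 1 (susC k a ha) (susC_infty a ha) :=
  ContinuousMap.ext fun z => susF_succ a z

/-- **The splitting step**: `b` is any third map. -/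
theorem stHtpc_of_cat {k : ℕ} {a a' : C(Sph m, TT n P)} (ha : a ∞ = ∞) (ha' : a' ∞ = ∞)
    {B : C(Sph (m + k) × I, TT (n + k + 1) P)} (hB : IsLp (∞ : Sph (m + k)) ∞ B)
    (h1 : ∀ z, lp (susC k a ha) (z, 1) = B (z, 1)) (h1' : ∀ z, lp (susC k a' ha') (z, 1) = B (z, 1))
    (h : (cat _ B h1).HomotopicRel (cat _ B h1') (Bd ∞)) :
    StHtpc (m := m) (n := n) (X := TopCat.of P) a a' := by
  refine stHtpc_of_sus (k := k + 1) ha ha' ?_
  rw [susC_succ a ha, susC_succ a' ha']
  exact sus_of_lp _ _ (cancel (isLp_lp (susC_infty a ha)) (isLp_lp (susC_infty a' ha')) hB h1 h1' h)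

end Vale.Agent.P263B64
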