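import Mathlib.Topology.Homotopy.Basic

/-!
# P263, bridge: cancellation for families of loops

`A`, `A'`, `B` are families of loops. If `A * B⁻¹` and `A' * B⁻¹` are homotopic, so are `A` and `A'`.
-/

namespace Vale.Agent.P263B64

open unitInterval Set

variable {Z T : Type} [TopologicalSpace Z] [TopologicalSpace T]

/-- the retraction of the line to the interval -/
noncomputable def pj (r : ℝ) : I := projIcc 0 1 zero_le_one r

theorem continuous_pj : Continuous pj := continuous_projIcc (h := zero_le_one)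

theorem pj_coe (t : I) : pj (t : ℝ) = t := projIcc_val _ t

theorem pj_nonpos {r : ℝ} (h : r ≤ 0) : pj r = 0 := projIcc_of_le_left _ h

theorem pj_one_le {r : ℝ} (h : 1 ≤ r) : pj r = 1 := projIcc_of_right_le _ h

theorem coe_pj {r : ℝ} (h0 : 0 ≤ r) (h1 : r ≤ 1) : (pj r : ℝ) = r :=
  congrArg Subtype.val (projIcc_of_mem _ ⟨h0, h1⟩)

/-- the set where a family of loops is at the base point -/
def Bd (z₀ : Z) : Set (Z × I) := {p | p.2 = 0 ∨ p.2 = 1 ∨ p.1 = z₀}

/-- a family of loops at `t₀` -/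
def IsLp (z₀ : Z) (t₀ : T) (A : C(Z × I, T)) : Prop := ∀ p ∈ Bd z₀, A p = t₀

variable {z₀ : Z} {t₀ : T}

theorem IsLp.zero {A : C(Z × I, T)} (h : IsLp z₀ t₀ A) (z : Z) : A (z, 0) = t₀ :=
  h _ (Or.inl rfl)

theorem IsLp.one {A : C(Z × I, T)} (h : IsLp z₀ t₀ A) (z : Z) : A (z, 1) = t₀ :=
  h _ (Or.inr (Or.inl rfl))

theorem IsLp.base {A : C(Z × I, T)} (h : IsLp z₀ t₀ A) (s : I) : A (z₀, s) = t₀ :=
  h _ (Or.inr (Or.inr rfl))

/-- out along `A` on `[0, 1]`, back along `B` on `[1, 2]` -/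
noncomputable def W (A B : C(Z × I, T)) (p : Z × ℝ) : T :=
  if p.2 ≤ 1 then A (p.1, pj p.2) else B (p.1, pj (2 - p.2))

theorem W_le {A B : C(Z × I, T)} (z : Z) {u : ℝ} (h : u ≤ 1) : W A B (z, u) = A (z, pj u) :=
  if_pos h

theorem W_ge {A B : C(Z × I, T)} (hAB : ∀ z, A (z, 1) = B (z, 1)) (z : Z) {u : ℝ} (h : 1 ≤ u) :
    W A B (z, u) = B (z, pj (2 - u)) := by
  rcases h.eq_or_lt with rfl | h
  · rw [W_le z le_rfl, pj_one_le le_rfl, pj_one_le (by norm_num), hAB]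
  · exact if_neg (not_le.2 h)

theorem continuous_W {A B : C(Z × I, T)} (hAB : ∀ z, A (z, 1) = B (z, 1)) :
    Continuous (W A B) := by
  unfold W
  refine Continuous.if_le ?_ ?_ continuous_snd continuous_const ?_
  · exact A.continuous.comp (continuous_fst.prodMk (continuous_pj.comp continuous_snd))
  · exact B.continuous.comp (continuous_fst.prodMk
      (continuous_pj.comp (continuous_const.sub continuous_snd)))
  · rintro ⟨z, u⟩ h
    obtain rfl : u = 1 := h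
    show A (z, pj 1) = B (z, pj (2 - 1))
    rw [pj_one_le le_rfl, pj_one_le (by norm_num), hAB]

/-- `A * B⁻¹` -/
noncomputable def cat (A B : C(Z × I, T)) (hAB : ∀ z, A (z, 1) = B (z, 1)) : C(Z × I, T) :=
  ⟨fun p => W A B (p.1, 2 * (p.2 : ℝ)), (continuous_W hAB).comp (by fun_prop)⟩

theorem cat_apply {A B : C(Z × I, T)} (hAB : ∀ z, A (z, 1) = B (z, 1)) (z : Z) (s : I) :
    cat A B hAB (z, s) = W A B (z, 2 * (s : ℝ)) := rfl

/-- the reversed family -/
noncomputable def rev (B : C(Z × I, T)) : C(Z × I, T) :=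
  ⟨fun p => B (p.1, σ p.2), B.continuous.comp (by fun_prop)⟩

theorem rev_apply (B : C(Z × I, T)) (z : Z) (s : I) : rev B (z, s) = B (z, σ s) := rfl

theorem isLp_cat {A B : C(Z × I, T)} (hA : IsLp z₀ t₀ A) (hB : IsLp z₀ t₀ B)
    (hAB : ∀ z, A (z, 1) = B (z, 1)) : IsLp z₀ t₀ (cat A B hAB) := by
  rintro ⟨z, s⟩ (h | h | h)
  · obtain rfl : s = 0 := h
    rw [cat_apply, W_le z (by simp), pj_nonpos (by simp), hA.zero]
  · obtain rfl : s = 1 := h
    rw [cat_apply, W_ge hAB z (by simp), pj_nonpos (by simp), hB.zero]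
  · obtain rfl : z = z₀ := h
    rw [cat_apply]
    rcases le_total (2 * (s : ℝ)) 1 with h | h
    · rw [W_le _ h, hA.base]
    · rw [W_ge hAB _ h, hB.base]

/-- a homotopy through families of loops -/
theorem htp_of {A A' : C(Z × I, T)} (hA : IsLp z₀ t₀ A) (H : I × (Z × I) → T) (hH : Continuous H)
    (h0 : ∀ p, H (0, p) = A p) (h1 : ∀ p, H (1, p) = A' p)
    (hb : ∀ t, ∀ p ∈ Bd z₀, H (t, p) = t₀) : A.HomotopicRel A' (Bd z₀) :=
  ⟨⟨⟨⟨H, hH⟩, h0, h1⟩, fun t p hp => (hb t p hp).trans (hA p hp).symm⟩⟩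

theorem rev_one {D B : C(Z × I, T)} (hD : IsLp z₀ t₀ D) (hB : IsLp z₀ t₀ B) (z : Z) :
    D (z, 1) = rev B (z, 1) := by
  rw [rev_apply, symm_one, hD.one, hB.zero]

/-- `A` is homotopic to `(A * B⁻¹) * B` -/
theorem htp_cat_cat {A B : C(Z × I, T)} (hA : IsLp z₀ t₀ A) (hB : IsLp z₀ t₀ B)
    (hAB : ∀ z, A (z, 1) = B (z, 1)) :
    A.HomotopicRel (cat (cat A B hAB) (rev B) (rev_one (isLp_cat hA hB hAB) hB)) (Bd z₀) := by
  refine htp_of hA (fun q => W A B (q.2.1, (1 - (q.1 : ℝ)) * (q.2.2 : ℝ) +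
    (q.1 : ℝ) * min (4 * (q.2.2 : ℝ)) (3 - 2 * (q.2.2 : ℝ))))
    ((continuous_W hAB).comp (by fun_prop)) ?_ ?_ ?_
  · rintro ⟨z, s⟩
    have h : (1 - ((0 : I) : ℝ)) * (s : ℝ) + ((0 : I) : ℝ) * min (4 * (s : ℝ)) (3 - 2 * (s : ℝ)) =
        s := by simp
    show W A B (z, _) = _
    rw [h, W_le z s.2.2, pj_coe]
  · rintro ⟨z, s⟩
    have h : (1 - ((1 : I) : ℝ)) * (s : ℝ) + ((1 : I) : ℝ) * min (4 * (s : ℝ)) (3 - 2 * (s : ℝ)) =
        min (4 * (s : ℝ)) (3 - 2 * (s : ℝ)) := by simp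
    have s0 := s.2.1
    have s1 := s.2.2
    show W A B (z, _) = _
    rw [h, cat_apply]
    rcases le_total (2 * (s : ℝ)) 1 with h2 | h2
    · rw [W_le z h2, cat_apply, coe_pj (by linarith) h2, min_eq_left (by linarith)]
      congr 2
      ring
    · rw [W_ge (rev_one (isLp_cat hA hB hAB) hB) z h2, min_eq_right (by linarith),
        W_ge hAB z (by linarith), rev_apply]
      congr 2
      apply Subtype.ext
      rw [coe_symm_eq, coe_pj (by linarith) (by linarith), coe_pj (by linarith) (by linarith)]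
      ring
  · rintro t ⟨z, s⟩ (h | h | h)
    · obtain rfl : s = 0 := h
      show W A B (z, _) = _
      rw [W_le z (by simp), pj_nonpos (by simp), hA.zero]
    · obtain rfl : s = 1 := h
      have h : (1 - (t : ℝ)) * ((1 : I) : ℝ) +
          (t : ℝ) * min (4 * ((1 : I) : ℝ)) (3 - 2 * ((1 : I) : ℝ)) = 1 := by
        norm_num
      show W A B (z, _) = _
      rw [h, W_le z le_rfl, pj_one_le le_rfl, hA.one]
    · obtain rfl : z = z₀ := h
      show W A B (z, _) = _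
      generalize (1 - (t : ℝ)) * (s : ℝ) + (t : ℝ) * min (4 * (s : ℝ)) (3 - 2 * (s : ℝ)) = u
      rcases le_total u 1 with h | h
      · rw [W_le _ h, hA.base]
      · rw [W_ge hAB _ h, hB.base]

/-- concatenation respects homotopies -/
theorem htp_cat {D D' B : C(Z × I, T)} (hD : IsLp z₀ t₀ D) (hB : IsLp z₀ t₀ B)
    (h : D.HomotopicRel D' (Bd z₀)) (h1 : ∀ z, D (z, 1) = B (z, 1))
    (h1' : ∀ z, D' (z, 1) = B (z, 1)) (hB0 : ∀ z, B (z, 1) = t₀) :
    (cat D B h1).HomotopicRel (cat D' B h1') (Bd z₀) := by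
  obtain ⟨G⟩ := h
  let G' : C((I × Z) × I, T) := ⟨fun q => G (q.1.1, (q.1.2, q.2)), by fun_prop⟩
  let B' : C((I × Z) × I, T) := ⟨fun q => B (q.1.2, q.2), by fun_prop⟩
  have hG : ∀ t, ∀ p ∈ Bd z₀, G (t, p) = t₀ := fun t p hp => (G.eq_fst t hp).trans (hD p hp)
  have hGB : ∀ z, G' (z, 1) = B' (z, 1) := fun z =>
    (hG z.1 (z.2, 1) (Or.inr (Or.inl rfl))).trans (hB0 z.2).symm
  refine htp_of (isLp_cat hD hB h1) (fun q => W G' B' ((q.1, q.2.1), 2 * (q.2.2 : ℝ)))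
    ((continuous_W hGB).comp (by fun_prop)) ?_ ?_ ?_
  · rintro ⟨z, s⟩
    show W G' B' (_, _) = _
    rw [cat_apply]
    rcases le_total (2 * (s : ℝ)) 1 with h | h
    · rw [W_le _ h, W_le _ h]
      exact G.apply_zero _
    · rw [W_ge hGB _ h, W_ge h1 _ h]
      rfl
  · rintro ⟨z, s⟩
    show W G' B' (_, _) = _
    rw [cat_apply]
    rcases le_total (2 * (s : ℝ)) 1 with h | h
    · rw [W_le _ h, W_le _ h]
      exact G.apply_one _
    · rw [W_ge hGB _ h, W_ge h1' _ h]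
      rfl
  · rintro t ⟨z, s⟩ (h | h | h)
    · obtain rfl : s = 0 := h
      show W G' B' (_, _) = _
      rw [W_le _ (by simp), pj_nonpos (by simp)]
      exact hG t (z, 0) (Or.inl rfl)
    · obtain rfl : s = 1 := h
      show W G' B' (_, _) = _
      rw [W_ge hGB _ (by simp), pj_nonpos (by simp)]
      exact hB.zero z
    · obtain rfl : z = z₀ := h
      show W G' B' (_, _) = _
      rcases le_total (2 * (s : ℝ)) 1 with h | h
      · rw [W_le _ h]
        exact hG t (z, _) (Or.inr (Or.inr rfl))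
      · rw [W_ge hGB _ h]
        exact hB.base _

theorem isLp_rev {B : C(Z × I, T)} (hB : IsLp z₀ t₀ B) : IsLp z₀ t₀ (rev B) := by
  rintro ⟨z, s⟩ (h | h | h)
  · obtain rfl : s = 0 := h
    rw [rev_apply, symm_zero, hB.one]
  · obtain rfl : s = 1 := h
    rw [rev_apply, symm_one, hB.zero]
  · obtain rfl : z = z₀ := h
    exact hB.base _

/-- **Cancellation.** -/
theorem cancel {A A' B : C(Z × I, T)} (hA : IsLp z₀ t₀ A) (hA' : IsLp z₀ t₀ A')
    (hB : IsLp z₀ t₀ B) (h1 : ∀ z, A (z, 1) = B (z, 1)) (h1' : ∀ z, A' (z, 1) = B (z, 1))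
    (h : (cat A B h1).HomotopicRel (cat A' B h1') (Bd z₀)) : A.HomotopicRel A' (Bd z₀) :=
  ((htp_cat_cat hA hB h1).trans (htp_cat (isLp_cat hA hB h1) (isLp_rev hB) h _ _
    (isLp_rev hB).one)).trans (htp_cat_cat hA' hB h1').symm

end Vale.Agent.P263B64
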